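import Mathlib

/-! # P061: real-rooted polynomials and the choice of a sign -/

namespace Vale.Agent.P061Z.MSS

open Polynomial Finset

/-- A monic real polynomial whose complex roots are negative reals has positive coefficients. -/
theorem coeff_pos : ∀ (N : ℕ) (q : ℝ[X]), q.Monic → q.natDegree = N →
    (∀ z : ℂ, aeval z q = 0 → z.im = 0 ∧ z.re < 0) → ∀ k ≤ N, 0 < q.coeff k := by
  intro N
  induction N with
  | zero =>
    intro q hm hd _ k hk
    have h1 : q = 1 := hm.natDegree_eq_zero.1 hd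
    have : k = 0 := by omega
    simp [h1, this]
  | succ N ih =>
    intro q hm hd hr k hk
    have hdeg : (q.map (algebraMap ℝ ℂ)).degree ≠ 0 := by
      rw [degree_map, degree_eq_natDegree hm.ne_zero, hd]
      exact_mod_cast Nat.succ_ne_zero N
    obtain ⟨z, hz⟩ := IsAlgClosed.exists_root _ hdeg
    have hz' : aeval z q = 0 := by
      rw [aeval_def, eval₂_eq_eval_map]; exact hz
    obtain ⟨him, hre⟩ := hr z hz'
    have hzr : z = ((z.re : ℝ) : ℂ) := Complex.ext (by simp) (by simp [him])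
    have hroot : q.IsRoot z.re := by
      have h2 : aeval (algebraMap ℝ ℂ z.re) q = 0 := by
        rw [Complex.coe_algebraMap, ← hzr]; exact hz'
      rw [aeval_algebraMap_apply] at h2
      have h3 : aeval z.re q = 0 := by
        have := (algebraMap ℝ ℂ).injective (h2.trans (map_zero _).symm)
        exact this
      simpa [IsRoot] using h3
    obtain ⟨q', hq'⟩ := dvd_iff_isRoot.2 hroot
    have hm' : q'.Monic := by
      have := hm
      rw [hq'] at this
      exact (monic_X_sub_C _).of_mul_monic_left this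
    have hd' : q'.natDegree = N := by
      have := hd
      rw [hq', (monic_X_sub_C _).natDegree_mul hm', natDegree_X_sub_C] at this
      omega
    have hpos := ih q' hm' hd' (fun w hw => hr w (by rw [hq', map_mul, hw, mul_zero]))
    have hnn : ∀ j, 0 ≤ q'.coeff j := by
      intro j
      by_cases hj : j ≤ N
      · exact (hpos j hj).le
      · rw [coeff_eq_zero_of_natDegree_lt (by omega)]
    rw [hq', sub_mul, coeff_sub, coeff_C_mul]
    rcases k with _ | k
    · have := hpos 0 (Nat.zero_le _)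
      simp only [coeff_X_mul_zero]
      nlinarith
    · rw [coeff_X_mul]
      have h1 := hpos k (by omega)
      have h2 := hnn (k + 1)
      nlinarith

theorem eval_pos_of_coeff {N : ℕ} {q : ℝ[X]} (hd : q.natDegree = N) (h0 : 0 < q.coeff 0)
    (h : ∀ k ≤ N, 0 ≤ q.coeff k) {y : ℝ} (hy : 0 ≤ y) : 0 < q.eval y := by
  rw [eval_eq_sum_range, hd, Finset.sum_range_succ']
  have : 0 ≤ ∑ k ∈ range N, q.coeff (k + 1) * y ^ (k + 1) :=
    Finset.sum_nonneg fun k hk => mul_nonneg (h _ (by simp at hk; omega)) (pow_nonneg hy _)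
  simp only [pow_zero, mul_one]
  linarith

theorem roots_neg {q : ℝ[X]} (hs : ∀ z : ℂ, 0 < z.im → aeval z q ≠ 0)
    (hp : ∀ y : ℝ, 0 ≤ y → 0 < q.eval y) (z : ℂ) (hz : aeval z q = 0) : z.im = 0 ∧ z.re < 0 := by
  have him : z.im = 0 := by
    rcases lt_trichotomy z.im 0 with h | h | h
    · exfalso
      refine hs ((starRingEnd ℂ) z) (by simpa using h) ?_
      rw [aeval_conj, hz, map_zero]
    · exact h
    · exact absurd hz (hs z h)
  refine ⟨him, ?_⟩
  by_contra hre
  push Not at hre
  have hzr : z = algebraMap ℝ ℂ z.re := Complex.ext (by simp) (by simp [him])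
  rw [hzr, aeval_algebraMap_apply] at hz
  have h3 : aeval z.re q = 0 := (algebraMap ℝ ℂ).injective (hz.trans (map_zero _).symm)
  have := hp z.re hre
  simp at h3
  linarith

/-- Moving along a segment of real-rooted polynomials, no root can enter `[0, ∞)` except
through `0`. -/
theorem segment {N : ℕ} {q₀ q₁ : ℝ[X]} (hm₀ : q₀.Monic) (hm₁ : q₁.Monic) (hd₀ : q₀.natDegree = N)
    (hd₁ : q₁.natDegree = N)
    (hs : ∀ t : ℝ, 0 ≤ t → t ≤ 1 → ∀ z : ℂ, 0 < z.im →
      (1 - (t : ℂ)) * aeval z q₀ + t * aeval z q₁ ≠ 0)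
    (hp : ∀ y : ℝ, 0 ≤ y → 0 < q₀.eval y) (h0 : 0 < q₁.eval 0) :
    ∀ y : ℝ, 0 ≤ y → 0 < q₁.eval y := by
  have hc₀ : ∀ k ≤ N, 0 < q₀.coeff k :=
    coeff_pos N q₀ hm₀ hd₀ (roots_neg (fun z hz => by simpa using hs 0 le_rfl zero_le_one z hz) hp)
  have h0' : 0 < q₁.coeff 0 := by rwa [coeff_zero_eq_eval_zero]
  suffices h : ∀ k ≤ N, 0 < q₁.coeff k from
    fun y hy => eval_pos_of_coeff hd₁ h0' (fun k hk => (h k hk).le) hy
  by_contra hcon
  push Not at hcon
  set S := (range (N + 1)).filter fun k => q₁.coeff k ≤ 0 with hS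
  have hne : S.Nonempty := by
    obtain ⟨k, hk, hk'⟩ := hcon
    exact ⟨k, by simp [hS, hk', hk]⟩
  obtain ⟨k, hkS, hmin⟩ := S.exists_min_image
    (fun k => q₀.coeff k / (q₀.coeff k - q₁.coeff k)) hne
  have hkN : k ≤ N := by simp [hS] at hkS; exact hkS.1
  have hk1 : q₁.coeff k ≤ 0 := by simp [hS] at hkS; exact hkS.2
  have hk0 := hc₀ k hkN
  set t := q₀.coeff k / (q₀.coeff k - q₁.coeff k) with ht
  have hden : 0 < q₀.coeff k - q₁.coeff k := by linarith
  have ht0 : 0 < t := div_pos hk0 hden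
  have ht1 : t ≤ 1 := by rw [ht, div_le_one hden]; linarith
  set q := C (1 - t) * q₀ + C t * q₁ with hq
  have hcoef : ∀ j, q.coeff j = (1 - t) * q₀.coeff j + t * q₁.coeff j := by
    intro j; simp only [hq, coeff_add, coeff_C_mul]
  have hN : q.coeff N = 1 := by
    have e0 : q₀.coeff N = 1 := by rw [← hd₀]; exact hm₀
    have e1 : q₁.coeff N = 1 := by rw [← hd₁]; exact hm₁
    rw [hcoef, e0, e1]; ring
  have hle : q.natDegree ≤ N := by
    rw [natDegree_le_iff_coeff_eq_zero]
    intro j hj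
    rw [hcoef, coeff_eq_zero_of_natDegree_lt (by omega : q₀.natDegree < j),
      coeff_eq_zero_of_natDegree_lt (by omega : q₁.natDegree < j)]
    ring
  have hd : q.natDegree = N := natDegree_eq_of_le_of_coeff_ne_zero hle (by rw [hN]; norm_num)
  have hm : q.Monic := by
    rw [Monic, leadingCoeff, hd, hN]
  have hnn : ∀ j ≤ N, 0 ≤ q.coeff j := by
    intro j hj
    rw [hcoef]
    have hj0 := hc₀ j hj
    by_cases hj1 : q₁.coeff j ≤ 0
    · have := hmin j (by simp [hS, hj1, hj])
      have hdj : 0 < q₀.coeff j - q₁.coeff j := by linarith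
      rw [le_div_iff₀ hdj] at this
      nlinarith
    · push Not at hj1
      have : 0 ≤ 1 - t := by linarith
      positivity
  have hq0 : 0 < q.coeff 0 := by
    rw [hcoef]
    have := hc₀ 0 (Nat.zero_le _)
    have h1 : 0 ≤ 1 - t := by linarith
    positivity
  have hall := coeff_pos N q hm hd (roots_neg (fun z hz => by
    have := hs t ht0.le ht1 z hz
    simpa [hq] using this) (fun y hy => eval_pos_of_coeff hd hq0 hnn hy)) k hkN
  rw [hcoef] at hall
  have : t * (q₀.coeff k - q₁.coeff k) = q₀.coeff k := by rw [ht]; field_simp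
  nlinarith

end Vale.Agent.P061Z.MSS
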