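import Vale.Agent.P061Z.MSS.Base
import Vale.Agent.P061Z.MSS.Poly

/-! # P061: the sign theorem -/

namespace Vale.Agent.P061Z

open Finset Polynomial Matrix

namespace MSS

variable {ι n : Type} [Fintype ι] [Fintype n] [DecidableEq ι] [DecidableEq n]

/-- The average of the starting function over independent signs on the list `l`. -/
noncomputable def avg (v : ι → n → ℝ) : List ι → ℂ → (ι ⊕ ι → ℂ) → ℂ
  | [] => base v
  | i :: l => op (Sum.inl i) (Sum.inr i) 0 (avg v l)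

theorem good_avg (v : ι → n → ℝ) : ∀ l, Good (avg v l)
  | [] => good_base v
  | _ :: l => (good_avg v l).op Sum.inl_ne_inr (by norm_num)

theorem inv_avg {v : ι → n → ℝ} {r : ℝ} (hr : 0 < r) (hr1 : 2 * r ≤ 1)
    (hv : ∀ i, ∑ j, v i j ^ 2 ≤ r ^ 2)
    (hs : ∀ x : n → ℝ, ∑ i, (∑ j, v i j * x j) ^ 2 ≤ ∑ j, x j ^ 2) {x : ℝ} (hx : 3 * r ≤ x) :
    ∀ l : List ι, l.Nodup → Inv (avg v l x) (2 * r) {k | Sum.elim id id k ∈ l}
  | [], _ => by simpa [avg] using inv_base hr hv hs hx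
  | i :: l, hl => by
    have hl' := List.nodup_cons.1 hl
    have e : {k : ι ⊕ ι | Sum.elim id id k ∈ i :: l} =
        insert (Sum.inl i) (insert (Sum.inr i) {k | Sum.elim id id k ∈ l}) := by
      ext k
      rcases k with k | k <;> simp
    rw [e]
    exact inv_step (good_avg v l) x (by linarith) hr1 (by simpa using hl'.1)
      (by simpa using hl'.1) Sum.inl_ne_inr (inv_avg hr hr1 hv hs hx l hl'.2)

/-- The point moved by the sign `c` at the index `i`. -/
def mv (b : ι ⊕ ι → ℝ) (i : ι) (c : ℝ) : ι ⊕ ι → ℝ :=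
  b + Pi.single (Sum.inl i) (-c) + Pi.single (Sum.inr i) c

/-- The same average as a polynomial in the shifted first variable. -/
noncomputable def pol (v : ι → n → ℝ) (α : ℝ) : List ι → (ι ⊕ ι → ℝ) → ℝ[X]
  | [], b => (-mat v α fun i => b (Sum.inl i)).charpoly * (-mat v α fun i => b (Sum.inr i)).charpoly
  | i :: l, b => C (1 / 2) * pol v α l (mv b i 1) + C (1 / 2) * pol v α l (mv b i (-1))

theorem pol_monic (v : ι → n → ℝ) (α : ℝ) : ∀ (l : List ι) (b : ι ⊕ ι → ℝ),
    (pol v α l b).Monic ∧ (pol v α l b).natDegree = 2 * Fintype.card n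
  | [], b => by
    refine ⟨(charpoly_monic _).mul (charpoly_monic _), ?_⟩
    rw [pol, (charpoly_monic _).natDegree_mul (charpoly_monic _), charpoly_natDegree_eq_dim,
      charpoly_natDegree_eq_dim, two_mul]
  | i :: l, b => by
    obtain ⟨m1, d1⟩ := pol_monic v α l (mv b i 1)
    obtain ⟨m2, d2⟩ := pol_monic v α l (mv b i (-1))
    have hN : (pol v α (i :: l) b).coeff (2 * Fintype.card n) = 1 := by
      have e0 : (pol v α l (mv b i 1)).coeff (2 * Fintype.card n) = 1 := by rw [← d1]; exact m1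
      have e1 : (pol v α l (mv b i (-1))).coeff (2 * Fintype.card n) = 1 := by rw [← d2]; exact m2
      rw [pol, coeff_add, coeff_C_mul, coeff_C_mul, e0, e1]; norm_num
    have hle : (pol v α (i :: l) b).natDegree ≤ 2 * Fintype.card n := by
      rw [natDegree_le_iff_coeff_eq_zero]
      intro j hj
      rw [pol, coeff_add, coeff_C_mul, coeff_C_mul, coeff_eq_zero_of_natDegree_lt (d1 ▸ hj),
        coeff_eq_zero_of_natDegree_lt (d2 ▸ hj)]
      ring
    have hd := natDegree_eq_of_le_of_coeff_ne_zero hle (by rw [hN]; norm_num)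
    exact ⟨by rw [Monic, leadingCoeff, hd, hN], hd⟩

omit [DecidableEq ι] in
theorem aeval_charpoly_mat (v : ι → n → ℝ) (α : ℝ) (z : ι → ℝ) (y : ℂ) :
    aeval y (-mat v α z).charpoly = dt v (y + α) fun i => (z i : ℂ) := by
  rw [aeval_def, eval₂_eq_eval_map, ← charpoly_map, eval_charpoly, dt]
  congr 1
  rw [Matrix.map_neg _ (map_neg _), mat_map]
  ext j k
  simp only [mat, scalar_apply, Matrix.sub_apply, Matrix.neg_apply, Matrix.add_apply,
    Matrix.smul_apply, diagonal_apply, one_apply, smul_eq_mul]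
  split_ifs <;> ring

omit [Fintype ι] in
theorem mv_coe (b : ι ⊕ ι → ℝ) (i : ι) (c : ℝ) :
    (fun k => ((mv b i c k : ℝ) : ℂ)) =
      (fun k => (b k : ℂ)) + Pi.single (Sum.inl i) (-(c : ℂ)) + Pi.single (Sum.inr i) (c : ℂ) := by
  ext k
  simp only [mv, Pi.add_apply, Pi.single_apply]
  split_ifs <;> simp

theorem aeval_pol (v : ι → n → ℝ) (α : ℝ) (y : ℂ) : ∀ (l : List ι) (b : ι ⊕ ι → ℝ),
    aeval y (pol v α l b) = avg v l (y + α) fun k => (b k : ℂ)
  | [], b => by rw [pol, map_mul, aeval_charpoly_mat, aeval_charpoly_mat, avg, base]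
  | i :: l, b => by
    rw [pol, map_add, map_mul, map_mul, aeval_C, aeval_pol v α y l, aeval_pol v α y l, avg, op,
      mv_coe, mv_coe]
    simp

theorem eval_pol (v : ι → n → ℝ) (α : ℝ) (y : ℝ) (l : List ι) (b : ι ⊕ ι → ℝ) :
    (pol v α l b).eval y = (avg v l ((y + α : ℝ) : ℂ) fun k => (b k : ℂ)).re := by
  have := aeval_pol v α (algebraMap ℝ ℂ y) l b
  rw [aeval_algebraMap_apply, Complex.coe_algebraMap] at this
  push_cast
  rw [← this]
  simp

theorem choose_one (v : ι → n → ℝ) (α : ℝ) (i : ι) (l : List ι) (b : ι ⊕ ι → ℝ)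
    (h : ∀ y : ℝ, 0 ≤ y → 0 < (pol v α (i :: l) b).eval y) :
    ∃ c : ℝ, (c = 1 ∨ c = -1) ∧ ∀ y : ℝ, 0 ≤ y → 0 < (pol v α l (mv b i c)).eval y := by
  have key : ∀ c : ℝ, (c = 1 ∨ c = -1) → 0 < (pol v α l (mv b i c)).eval 0 →
      ∀ y : ℝ, 0 ≤ y → 0 < (pol v α l (mv b i c)).eval y := by
    intro c hc h0
    refine segment (pol_monic v α (i :: l) b).1 (pol_monic v α l _).1 (pol_monic v α (i :: l) b).2
      (pol_monic v α l _).2 (fun t ht0 ht1 z hz => ?_) h h0
    have hμ : (c * t) ^ 2 ≤ 1 := by rcases hc with rfl | rfl <;> nlinarith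
    have := ((good_avg v l).op (s := Sum.inl i) (t := Sum.inr i) Sum.inl_ne_inr hμ).stab (z + α)
      (fun k => (b k : ℂ)) (by simpa using hz) (by simp)
    intro h1
    apply this
    rw [← h1, aeval_pol, aeval_pol, avg, op, op, mv_coe]
    rcases hc with rfl | rfl
    · push_cast; ring
    · simp only [Complex.ofReal_neg, Complex.ofReal_one, neg_neg]
      push_cast; ring
  have h0 := h 0 le_rfl
  rw [pol, eval_add, eval_C_mul, eval_C_mul] at h0
  by_cases h1 : 0 < (pol v α l (mv b i 1)).eval 0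
  · exact ⟨1, Or.inl rfl, key 1 (Or.inl rfl) h1⟩
  · exact ⟨-1, Or.inr rfl, key (-1) (Or.inr rfl) (by linarith)⟩

theorem choose_all (v : ι → n → ℝ) (α : ℝ) : ∀ (l : List ι), l.Nodup → ∀ b : ι ⊕ ι → ℝ,
    (∀ y : ℝ, 0 ≤ y → 0 < (pol v α l b).eval y) →
    ∃ c : ι → ℝ, (∀ i ∈ l, c i = 1 ∨ c i = -1) ∧ (∀ i, i ∉ l → c i = 0) ∧
      ∀ y : ℝ, 0 ≤ y → 0 < (pol v α [] (b + Sum.elim (fun i => -c i) c)).eval y
  | [], _, b, h => ⟨0, by simp, by simp, by
      have : b + Sum.elim (fun i => -(0 : ι → ℝ) i) 0 = b := by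
        ext k; rcases k with k | k <;> simp
      rwa [this]⟩
  | i :: l, hl, b, h => by
    have hl' := List.nodup_cons.1 hl
    obtain ⟨c₀, hc₀, h1⟩ := choose_one v α i l b h
    obtain ⟨c, hc1, hc2, h2⟩ := choose_all v α l hl'.2 _ h1
    refine ⟨c + Pi.single i c₀, fun j hj => ?_, fun j hj => ?_, ?_⟩
    · rcases eq_or_ne j i with rfl | hji
      · simpa [hc2 j hl'.1] using hc₀
      · simpa [Pi.single_eq_of_ne hji] using hc1 j (by simpa [hji] using hj)
    · have hj' : j ≠ i ∧ j ∉ l := by simpa using hj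
      simp [Pi.single_eq_of_ne hj'.1, hc2 j hj'.2]
    · have : b + Sum.elim (fun j => -(c + Pi.single i c₀ : ι → ℝ) j) (c + Pi.single i c₀) =
          mv b i c₀ + Sum.elim (fun j => -c j) c := by
        ext k
        rcases k with k | k <;> simp [mv, Pi.single_apply] <;> split_ifs <;> ring
      rwa [this]

omit [DecidableEq ι] in
/-- No root to the right of `α` means a nonnegative form at `α`. -/
theorem form_nonneg (v : ι → n → ℝ) (α : ℝ) (z : ι → ℝ)
    (h : ∀ y : ℝ, 0 ≤ y → (-mat v α z).charpoly.eval y ≠ 0) (x : n → ℝ) :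
    0 ≤ x ⬝ᵥ (mat v α z *ᵥ x) := by
  have hH := mat_herm v α z
  have hP : (mat v α z).PosSemidef := by
    rw [hH.posSemidef_iff_eigenvalues_nonneg]
    intro j
    by_contra hneg
    simp only [Pi.zero_apply, not_le] at hneg
    apply h (-hH.eigenvalues j) (by linarith)
    rw [eval_charpoly, ← exists_mulVec_eq_zero_iff]
    refine ⟨(hH.eigenvectorBasis j).ofLp, ?_, ?_⟩
    · intro h0
      exact (hH.eigenvectorBasis.orthonormal.ne_zero j) (by ext k; simpa using congrFun h0 k)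
    · rw [sub_neg_eq_add, add_mulVec, hH.mulVec_eigenvectorBasis]
      ext k
      simp [scalar_apply]
  simpa using hP.dotProduct_mulVec_nonneg x

end MSS

open MSS in
theorem mss_sign {ι n : Type} [Fintype ι] [Fintype n] [DecidableEq ι] [DecidableEq n]
    (v : ι → n → ℝ) (ε : ℝ) (hε : 0 < ε) (hv : ∀ i, ∑ j, v i j ^ 2 ≤ ε)
    (hs : ∀ x : n → ℝ, ∑ i, (∑ j, v i j * x j) ^ 2 ≤ ∑ j, x j ^ 2) :
    ∃ s : Finset ι, ∀ x : n → ℝ,
      |∑ i ∈ s, (∑ j, v i j * x j) ^ 2 - (1 / 2) * ∑ i, (∑ j, v i j * x j) ^ 2| ≤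
        4 * Real.sqrt ε * ∑ j, x j ^ 2 := by
  set r := Real.sqrt ε with hr
  have hr0 : 0 < r := Real.sqrt_pos.2 hε
  have hr2 : r ^ 2 = ε := Real.sq_sqrt hε.le
  have hx2 : ∀ x : n → ℝ, 0 ≤ ∑ j, x j ^ 2 := fun x => Finset.sum_nonneg fun j _ => sq_nonneg _
  by_cases hr1 : 2 * r ≤ 1
  swap
  · refine ⟨∅, fun x => ?_⟩
    have h1 := hs x
    have h2 : 0 ≤ ∑ i, (∑ j, v i j * x j) ^ 2 := Finset.sum_nonneg fun j _ => sq_nonneg _
    have h3 := hx2 x
    rw [Finset.sum_empty, abs_le]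
    constructor <;> nlinarith
  have hnd : (univ : Finset ι).toList.Nodup := Finset.nodup_toList _
  obtain ⟨c, hc, -, hpos⟩ := choose_all v (3 * r) univ.toList hnd 0 (fun y hy => by
    rw [eval_pol]
    refine (inv_avg hr0 hr1 (by rwa [hr2]) hs (by linarith) _ hnd _ ⟨?_, ?_, ?_⟩).1 <;> simp)
  have hne : ∀ y : ℝ, 0 ≤ y → (-mat v (3 * r) fun i => -c i).charpoly.eval y ≠ 0 ∧
      (-mat v (3 * r) c).charpoly.eval y ≠ 0 := by
    intro y hy
    have := (hpos y hy).ne'
    simpa [pol, not_or] using this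
  refine ⟨univ.filter fun i => c i = 1, fun x => ?_⟩
  have h1 := form_nonneg v _ _ (fun y hy => (hne y hy).1) x
  have h2 := form_nonneg v _ _ (fun y hy => (hne y hy).2) x
  rw [mat_form] at h1 h2
  have e1 : ∑ j, x j * x j = ∑ j, x j ^ 2 := Finset.sum_congr rfl fun j _ => by ring
  have e2 : ∑ i ∈ univ.filter (fun i => c i = 1), (∑ j, v i j * x j) ^ 2 -
      (1 / 2) * ∑ i, (∑ j, v i j * x j) ^ 2 =
      (1 / 2) * ∑ i, c i * ((∑ j, v i j * x j) * ∑ j, v i j * x j) := by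
    rw [Finset.sum_filter, Finset.mul_sum, Finset.mul_sum, ← Finset.sum_sub_distrib]
    refine Finset.sum_congr rfl fun i _ => ?_
    rcases hc i (by simp) with h | h
    · rw [if_pos h, h]; ring
    · rw [if_neg (by rw [h]; norm_num), h]; ring
  have e3 : ∑ i, -c i * ((∑ j, v i j * x j) * ∑ j, v i j * x j) =
      -∑ i, c i * ((∑ j, v i j * x j) * ∑ j, v i j * x j) := by
    rw [← Finset.sum_neg_distrib]
    exact Finset.sum_congr rfl fun i _ => by ring
  rw [e1] at h1 h2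
  rw [e3] at h1
  have h3 := mul_nonneg hr0.le (hx2 x)
  rw [e2, abs_le]
  constructor <;> nlinarith

end Vale.Agent.P061Z
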