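import Vale.Agent.P061Z.MSS.Stab

/-! # P061: the barrier argument -/

namespace Vale.Agent.P061Z.MSS

theorem slope_nonneg {A B : ℝ} (h : ∀ a : ℝ, 0 ≤ a → 0 ≤ A + B * a) : 0 ≤ B := by
  by_contra hB
  push Not at hB
  have h0 := h 0 le_rfl
  have h1 := h ((A + 1) / (-B)) (div_nonneg (by linarith) (by linarith))
  have : B * ((A + 1) / (-B)) = -(A + 1) := by
    have := hB.ne
    field_simp
  linarith

theorem step_ineq {p0 p1 p2 q0 q1 q2 δ : ℝ} (hp0 : 0 < p0) (hp2 : 0 ≤ p2)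
    (hδ0 : 0 ≤ δ) (hδ1 : δ ≤ 1) (hp1δ : p1 ≤ δ * p0)
    (h : ∀ a b : ℝ, 0 < b → 0 ≤ (p1 * q0 - p0 * q1) + 2 * (p2 * q0 - p0 * q2) * a +
      (p2 * q1 - p1 * q2) * (a ^ 2 + b ^ 2)) :
    (q0 + δ * q1 + (δ ^ 2 - 1) * q2) * p0 ≤ q0 * (p0 + δ * p1 + (δ ^ 2 - 1) * p2) := by
  set n := p1 * q0 - p0 * q1 with hn
  set C := p2 * q0 - p0 * q2 with hC
  set E := p2 * q1 - p1 * q2 with hE
  have h' : ∀ a : ℝ, 0 ≤ E * (a * a) + 2 * C * a + n := by
    intro a
    refine le_of_forall_pos_le_add fun η hη => ?_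
    set b := Real.sqrt (η / (|E| + 1)) with hb
    have hE1 : 0 < |E| + 1 := by positivity
    have hb0 : 0 < b := Real.sqrt_pos.2 (div_pos hη hE1)
    have hb2 : b ^ 2 = η / (|E| + 1) := Real.sq_sqrt (div_pos hη hE1).le
    have h1 := h a b hb0
    have h2 : E * b ^ 2 ≤ η := by
      rw [hb2, ← mul_div_assoc, div_le_iff₀ hE1]
      have := le_abs_self E
      nlinarith
    nlinarith
  have hn0 : 0 ≤ n := by simpa using h' 0
  have hdisc := discrim_le_zero h'
  rw [discrim] at hdisc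
  have hid : p0 * E = p1 * C - p2 * n := by simp only [hn, hC, hE]; ring
  have hgoal : 0 ≤ δ * n + (δ ^ 2 - 1) * C := by
    rcases le_or_gt C 0 with hC0 | hC0
    · have : 0 ≤ (δ ^ 2 - 1) * C := mul_nonneg_of_nonpos_of_nonpos (by nlinarith) hC0
      positivity
    · have h1 : C ^ 2 ≤ n * E := by nlinarith
      have h2 : p0 * C ^ 2 ≤ n * (p1 * C) := by
        have : p0 * C ^ 2 ≤ n * (p0 * E) := by nlinarith
        rw [hid] at this
        nlinarith [mul_nonneg hp2 (mul_nonneg hn0 hn0)]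
      have h3 : p0 * C ≤ n * p1 := by
        by_contra hlt
        push Not at hlt
        nlinarith
      have h4 : p0 * C ≤ p0 * (δ * n) := by nlinarith
      have h5 : C ≤ δ * n := le_of_mul_le_mul_left h4 hp0
      nlinarith [mul_nonneg (sq_nonneg δ) hC0.le]
  simp only [hn, hC] at hgoal
  nlinarith

variable {K : Type} [DecidableEq K]

/-- Real on real points. -/
def RealF (g : (K → ℂ) → ℂ) : Prop := ∀ ζ : K → ℂ, (∀ k, (ζ k).im = 0) → (g ζ).im = 0

theorem RealF.dif {g : (K → ℂ) → ℂ} (h : RealF g) (k : K) : RealF (dif g k) := by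
  intro ζ hζ
  simp [MSS.dif, h ζ hζ, h _ (im_add_single_real hζ k (c := 1) (by simp))]

omit [DecidableEq K] in
theorem RealF.exists {g : (K → ℂ) → ℂ} (h : RealF g) {ζ : K → ℂ} (hζ : ∀ k, (ζ k).im = 0) :
    ∃ r : ℝ, g ζ = r := ⟨(g ζ).re, Complex.ext (by simp) (by simp [h ζ hζ])⟩

/-- The points above the barrier, with the variables of `T` frozen at zero. -/
def Dom (δ : ℝ) (T : Set K) (ζ : K → ℂ) : Prop :=
  (∀ k, (ζ k).im = 0) ∧ (∀ k ∈ T, ζ k = 0) ∧ ∀ k, k ∉ T → -δ ≤ (ζ k).re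

/-- The barrier invariant. -/
def Inv (g : (K → ℂ) → ℂ) (δ : ℝ) (T : Set K) : Prop :=
  ∀ ζ, Dom δ T ζ → 0 < (g ζ).re ∧ ∀ u, u ∉ T → (dif g u ζ).re ≤ δ / 2 * (g ζ).re

theorem Dom.add {δ : ℝ} {T : Set K} {ζ : K → ℂ} (h : Dom δ T ζ) {s : K} (hs : s ∉ T) {a : ℝ}
    (ha : 0 ≤ a) : Dom δ T (ζ + Pi.single s (a : ℂ)) := by
  refine ⟨im_add_single_real h.1 s (by simp), fun k hk => ?_, fun k hk => ?_⟩
  · have : k ≠ s := fun e => hs (e ▸ hk)
    simp [Pi.single_eq_of_ne this, h.2.1 k hk]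
  · have := h.2.2 k hk
    rcases eq_or_ne k s with rfl | h1
    · simp only [Pi.add_apply, Pi.single_eq_same, Complex.add_re, Complex.ofReal_re]; linarith
    · simpa [Pi.single_eq_of_ne h1] using this

theorem Aff.avg {g : (K → ℂ) → ℂ} (h : Aff g) (ζ : K → ℂ) (s t : K) (δ : ℂ) :
    1 / 2 * g (ζ + Pi.single s (-1) + Pi.single t 1) +
      1 / 2 * g (ζ + Pi.single s 1 + Pi.single t (-1)) =
    g (ζ + Pi.single s (-δ) + Pi.single t (-δ)) +
      δ * (MSS.dif g s (ζ + Pi.single s (-δ) + Pi.single t (-δ)) +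
        MSS.dif g t (ζ + Pi.single s (-δ) + Pi.single t (-δ))) +
      (δ ^ 2 - 1) * MSS.dif (MSS.dif g t) s (ζ + Pi.single s (-δ) + Pi.single t (-δ)) := by
  have e : ∀ a b : ℂ, ζ + Pi.single s a + Pi.single t b =
      ζ + Pi.single s (-δ) + Pi.single t (-δ) + Pi.single s (δ + a) + Pi.single t (δ + b) := by
    intro a b
    simp only [Pi.single_add, Pi.single_neg]
    abel
  rw [e (-1) 1, e 1 (-1), h.two _ s t (δ + -1), h.two _ s t (δ + 1)]
  ring

theorem inv_step {f : ℂ → (K → ℂ) → ℂ} (h : Good f) (x : ℝ) {δ : ℝ} (hδ0 : 0 < δ) (hδ1 : δ ≤ 1)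
    {T : Set K} {s t : K} (hs : s ∉ T) (ht : t ∉ T) (hst : s ≠ t) (hI : Inv (f x) δ T) :
    Inv (op s t 0 f x) δ (insert s (insert t T)) := by
  intro ζ hζ
  set ζ₀ : K → ℂ := ζ + Pi.single s (-(δ : ℂ)) + Pi.single t (-(δ : ℂ)) with hζ₀
  have hD : Dom δ T ζ₀ := by
    refine ⟨im_add_single_real (im_add_single_real hζ.1 s (by simp)) t (by simp),
      fun k hk => ?_, fun k hk => ?_⟩
    · have h1 : k ≠ s := fun e => hs (e ▸ hk)
      have h2 : k ≠ t := fun e => ht (e ▸ hk)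
      simp [hζ₀, Pi.single_eq_of_ne h1, Pi.single_eq_of_ne h2, hζ.2.1 k (by simp [hk])]
    · rcases eq_or_ne k s with rfl | h1
      · simp [hζ₀, Pi.single_eq_of_ne hst, hζ.2.1 k (by simp)]
      · rcases eq_or_ne k t with rfl | h2
        · simp [hζ₀, Pi.single_eq_of_ne h1, hζ.2.1 k (by simp)]
        · simpa [hζ₀, Pi.single_eq_of_ne h1, Pi.single_eq_of_ne h2] using
            hζ.2.2 k (by simp [h1, h2, hk])
  have hR : RealF (f x) := h.real x
  have hA : Aff (f x) := h.aff x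
  have him : ∀ k, 0 ≤ (ζ₀ k).im := fun k => (hD.1 k).ge
  obtain ⟨p00, e00⟩ := hR.exists hD.1
  obtain ⟨p10, e10⟩ := (hR.dif s).exists hD.1
  obtain ⟨p01, e01⟩ := (hR.dif t).exists hD.1
  obtain ⟨p11, e11⟩ := ((hR.dif t).dif s).exists hD.1
  have hpos : ∀ a b : ℝ, 0 ≤ a → 0 ≤ b → 0 < p00 + p10 * a + p01 * b + p11 * a * b := by
    intro a b ha hb
    have := (hI _ ((hD.add hs ha).add ht hb)).1
    rw [hA.two, e00, e10, e01, e11] at this
    simpa using this
  have h00 : 0 < p00 := by simpa using hpos 0 0 le_rfl le_rfl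
  have h10 : 0 ≤ p10 := slope_nonneg (A := p00) fun a ha => by
    simpa using (hpos a 0 ha le_rfl).le
  have h01 : 0 ≤ p01 := slope_nonneg (A := p00) fun a ha => by
    simpa using (hpos 0 a le_rfl ha).le
  have h11 : 0 ≤ p11 := slope_nonneg (A := p01) fun a ha =>
    slope_nonneg (A := p00 + p10 * a) fun b hb => by
      have := hpos a b ha hb
      linarith
  have b10 : p10 ≤ δ / 2 * p00 := by
    have := (hI _ hD).2 s hs
    rw [e10, e00] at this
    simpa using this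
  have b01 : p01 ≤ δ / 2 * p00 := by
    have := (hI _ hD).2 t ht
    rw [e01, e00] at this
    simpa using this
  have hray : p00 * p11 ≤ p10 * p01 := by
    have := h.im_nonneg x (im_add_single him s (c := Complex.I) (by simp)) t
    rw [hA ζ₀ s, hA.dif t ζ₀ s, e00, e10, e01, e11] at this
    simp at this
    linarith
  have hval : op s t 0 f x ζ = ((p00 + δ * (p10 + p01) + (δ ^ 2 - 1) * p11 : ℝ) : ℂ) := by
    have := hA.avg ζ s t δ
    rw [← hζ₀, e00, e10, e01, e11] at this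
    simp only [op]
    push_cast
    linear_combination this
  have hP : 0 < p00 + δ * (p10 + p01) + (δ ^ 2 - 1) * p11 := by
    have h1 : p00 * p11 ≤ p00 * (δ * p01) := by nlinarith
    have h2 : p11 ≤ δ * p01 := le_of_mul_le_mul_left h1 h00
    nlinarith [mul_nonneg (sq_nonneg δ) h11, mul_nonneg hδ0.le h10]
  refine ⟨by rw [hval]; exact_mod_cast hP, fun u hu => ?_⟩
  have huT : u ∉ T := fun e => hu (by simp [e])
  have hRu := hR.dif u
  have hAu := hA.dif u
  obtain ⟨q00, g00⟩ := hRu.exists hD.1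
  obtain ⟨q10, g10⟩ := (hRu.dif s).exists hD.1
  obtain ⟨q01, g01⟩ := (hRu.dif t).exists hD.1
  obtain ⟨q11, g11⟩ := ((hRu.dif t).dif s).exists hD.1
  have hvalu : dif (op s t 0 f x) u ζ =
      ((q00 + δ * (q10 + q01) + (δ ^ 2 - 1) * q11 : ℝ) : ℂ) := by
    have := hAu.avg ζ s t δ
    rw [← hζ₀, g00, g10, g01, g11] at this
    have e : ∀ a b : ℂ, ζ + Pi.single u 1 + Pi.single s a + Pi.single t b =
        ζ + Pi.single s a + Pi.single t b + Pi.single u 1 := fun a b => by abel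
    simp only [dif, op, e] at this ⊢
    push_cast
    linear_combination this
  have bq : q00 ≤ δ / 2 * p00 := by
    have := (hI _ hD).2 u huT
    rw [g00, e00] at this
    simpa using this
  have hstep := step_ineq (p0 := p00) (p1 := p10 + p01) (p2 := p11) (q0 := q00) (q1 := q10 + q01)
    (q2 := q11) h00 h11 hδ0.le hδ1 (by linarith) (fun a b hb => by
      have hσ : 0 ≤ (a + b * Complex.I : ℂ).im := by simpa using hb.le
      have := h.im_nonneg x (im_add_single (im_add_single him s hσ) t hσ) u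
      rw [hA.two, hAu.two, e00, e10, e01, e11, g00, g10, g01, g11] at this
      simp at this
      refine le_of_mul_le_mul_left ?_ hb
      nlinarith)
  rw [hvalu, hval, Complex.ofReal_re, Complex.ofReal_re]
  refine le_of_mul_le_mul_right ?_ h00
  nlinarith

end Vale.Agent.P061Z.MSS
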