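import Vale.Agent.P061Z.MSS.Barrier

/-! # P061: the determinantal starting function -/

namespace Vale.Agent.P061Z.MSS

open Matrix Finset

variable {ι n : Type} [Fintype ι] [Fintype n] [DecidableEq ι] [DecidableEq n]

theorem det_aff {R : Type} [CommRing R] (M : Matrix n n R) (a b : n → R) (c : R) :
    (M + c • vecMulVec a b).det = M.det + c * ((M + vecMulVec a b).det - M.det) := by
  set B : Matrix (n ⊕ Unit) (n ⊕ Unit) R := fromBlocks M (replicateCol Unit a) 0 1 with hB
  have key : ∀ c : R, (M + c • vecMulVec a b).det =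
      (B.updateRow (Sum.inr ()) (Sum.elim (fun j => -c * b j) fun _ => 1)).det := by
    intro c
    have e : B.updateRow (Sum.inr ()) (Sum.elim (fun j => -c * b j) fun _ => 1) =
        fromBlocks M (replicateCol Unit a) (replicateRow Unit fun j => -c * b j) 1 := by
      ext i j
      rcases i with i | i <;> rcases j with j | j <;> simp [hB, updateRow_apply]
    rw [e, det_fromBlocks_one₂₂]
    congr 1
    ext i j
    simp [vecMulVec_apply, Matrix.mul_apply]
    ring
  have e : (Sum.elim (fun j => -c * b j) fun _ => 1 : n ⊕ Unit → R) =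
      c • (Sum.elim (fun j => -1 * b j) fun _ => 1) +
        (1 - c) • (Sum.elim (fun j => -0 * b j) fun _ => 1) := by
    ext j
    rcases j with j | j <;> simp
  have k0 := key 0
  have k1 := key 1
  rw [key c, e, det_updateRow_add, det_updateRow_smul, det_updateRow_smul, ← k0, ← k1]
  simp only [zero_smul, add_zero, one_smul]
  ring

/-- The matrix `x + ∑ z_i a_i a_iᵀ`. -/
def mat {R : Type} [CommRing R] (a : ι → n → R) (x : R) (z : ι → R) : Matrix n n R :=
  x • (1 : Matrix n n R) + ∑ i, z i • vecMulVec (a i) (a i)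

omit [Fintype n] in
theorem mat_add_single {R : Type} [CommRing R] (a : ι → n → R) (x : R) (z : ι → R) (i : ι)
    (c : R) : mat a x (z + Pi.single i c) = mat a x z + c • vecMulVec (a i) (a i) := by
  simp only [mat, Pi.add_apply, add_smul, sum_add_distrib, add_assoc]
  congr 2
  rw [Finset.sum_eq_single i] <;> simp +contextual

omit [Fintype n] [DecidableEq ι] in
theorem mat_map (a : ι → n → ℝ) (x : ℝ) (z : ι → ℝ) :
    (mat a x z).map (algebraMap ℝ ℂ) =
      mat (fun i j => (a i j : ℂ)) (x : ℂ) fun i => (z i : ℂ) := by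
  ext j k
  simp [mat, Matrix.sum_apply, vecMulVec_apply, one_apply]
  split_ifs <;> simp

omit [DecidableEq ι] in
theorem mat_form {R : Type} [CommRing R] (a : ι → n → R) (x : R) (z : ι → R) (y y' : n → R) :
    y' ⬝ᵥ (mat a x z *ᵥ y) =
      x * ∑ j, y' j * y j + ∑ i, z i * ((∑ j, a i j * y' j) * ∑ j, a i j * y j) := by
  simp only [mat, add_mulVec, smul_mulVec, one_mulVec, sum_mulVec, dotProduct_add, dotProduct_smul,
    dotProduct_sum, vecMulVec_mulVec, smul_eq_mul]
  congr 1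
  refine Finset.sum_congr rfl fun i _ => ?_
  simp only [dotProduct, MulOpposite.smul_eq_mul_unop, MulOpposite.unop_op]
  congr 2
  exact Finset.sum_congr rfl fun j _ => mul_comm _ _

omit [Fintype n] [DecidableEq ι] in
theorem mat_herm (a : ι → n → ℝ) (x : ℝ) (z : ι → ℝ) : (mat a x z).IsHermitian := by
  ext j k
  simp [mat, Matrix.sum_apply, vecMulVec_apply, one_apply, eq_comm, mul_comm]

/-- The determinant as a function of complex variables. -/
noncomputable def dt (v : ι → n → ℝ) (x : ℂ) (z : ι → ℂ) : ℂ :=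
  (mat (fun i j => (v i j : ℂ)) x z).det

theorem dt_aff (v : ι → n → ℝ) (x : ℂ) : Aff (dt v x) := by
  intro z i c
  simp only [dif, dt, mat_add_single, one_smul]
  exact det_aff _ _ _ c

omit [DecidableEq ι] in
theorem dt_real (v : ι → n → ℝ) (x : ℝ) (z : ι → ℝ) :
    dt v x (fun i => (z i : ℂ)) = ((mat v x z).det : ℝ) := by
  rw [dt, ← mat_map]
  exact ((algebraMap ℝ ℂ).map_det (mat v x z)).symm

omit [DecidableEq ι] in
theorem dt_stab (v : ι → n → ℝ) {x : ℂ} {z : ι → ℂ} (hx : 0 < x.im) (hz : ∀ i, 0 ≤ (z i).im) :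
    dt v x z ≠ 0 := by
  intro h
  obtain ⟨y, hy, h0⟩ := exists_mulVec_eq_zero_iff.2 h
  have h1 := mat_form (fun i j => (v i j : ℂ)) x z y fun j => (starRingEnd ℂ) (y j)
  rw [h0, dotProduct_zero] at h1
  have e1 : ∑ j, (starRingEnd ℂ) (y j) * y j = ((∑ j, Complex.normSq (y j) : ℝ) : ℂ) := by
    push_cast
    exact Finset.sum_congr rfl fun j _ => by rw [Complex.normSq_eq_conj_mul_self]
  have e2 : ∀ i, (∑ j, (v i j : ℂ) * (starRingEnd ℂ) (y j)) * ∑ j, (v i j : ℂ) * y j =
      ((Complex.normSq (∑ j, (v i j : ℂ) * y j) : ℝ) : ℂ) := by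
    intro i
    rw [Complex.normSq_eq_conj_mul_self, map_sum]
    simp
  simp only [e1, e2] at h1
  have h2 := congrArg Complex.im h1
  simp only [Complex.zero_im, Complex.add_im, Complex.im_mul_ofReal, Complex.im_sum] at h2
  have p1 : 0 < ∑ j, Complex.normSq (y j) := by
    obtain ⟨j, hj⟩ := Function.ne_iff.1 hy
    exact Finset.sum_pos' (fun j _ => Complex.normSq_nonneg _)
      ⟨j, mem_univ j, Complex.normSq_pos.2 hj⟩
  have p2 : 0 ≤ ∑ i, (z i).im * Complex.normSq (∑ j, (v i j : ℂ) * y j) :=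
    Finset.sum_nonneg fun i _ => mul_nonneg (hz i) (Complex.normSq_nonneg _)
  have := mul_pos hx p1
  linarith

omit [DecidableEq ι] in
theorem dt_cont (v : ι → n → ℝ) (z : ι → ℂ) : Continuous fun x => dt v x z := by
  unfold dt mat
  exact ((continuous_id.smul continuous_const).add continuous_const).matrix_det

/-- The starting function. -/
noncomputable def base (v : ι → n → ℝ) (x : ℂ) (ζ : ι ⊕ ι → ℂ) : ℂ :=
  dt v x (fun i => ζ (Sum.inl i)) * dt v x fun i => ζ (Sum.inr i)

omit [Fintype ι] in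
theorem single_ll (ζ : ι ⊕ ι → ℂ) (i : ι) (c : ℂ) :
    (fun j => (ζ + Pi.single (Sum.inl i) c : ι ⊕ ι → ℂ) (Sum.inl j)) =
      (fun j => ζ (Sum.inl j)) + Pi.single i c := by
  ext j; simp [Pi.single_apply]

omit [Fintype ι] in
theorem single_rr (ζ : ι ⊕ ι → ℂ) (i : ι) (c : ℂ) :
    (fun j => (ζ + Pi.single (Sum.inr i) c : ι ⊕ ι → ℂ) (Sum.inr j)) =
      (fun j => ζ (Sum.inr j)) + Pi.single i c := by
  ext j; simp [Pi.single_apply]

omit [Fintype ι] in
theorem single_lr (ζ : ι ⊕ ι → ℂ) (i : ι) (c : ℂ) :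
    (fun j => (ζ + Pi.single (Sum.inl i) c : ι ⊕ ι → ℂ) (Sum.inr j)) = fun j => ζ (Sum.inr j) := by
  ext j; simp

omit [Fintype ι] in
theorem single_rl (ζ : ι ⊕ ι → ℂ) (i : ι) (c : ℂ) :
    (fun j => (ζ + Pi.single (Sum.inr i) c : ι ⊕ ι → ℂ) (Sum.inl j)) = fun j => ζ (Sum.inl j) := by
  ext j; simp

omit [Fintype ι] [DecidableEq ι] in
theorem exists_real {z : ι → ℂ} (h : ∀ i, (z i).im = 0) : ∃ r : ι → ℝ, z = fun i => (r i : ℂ) :=
  ⟨fun i => (z i).re, funext fun i => Complex.ext (by simp) (by simp [h i])⟩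

theorem good_base (v : ι → n → ℝ) : Good (base v) := by
  refine ⟨fun x ζ k c => ?_, fun x ζ hx hζ => ?_, fun ζ => ?_, fun x ζ hζ => ?_⟩
  · rcases k with i | i
    · simp only [dif, base, single_ll, single_lr]
      rw [dt_aff v x _ i c, dif]; ring
    · simp only [dif, base, single_rr, single_rl]
      rw [dt_aff v x _ i c, dif]; ring
  · exact mul_ne_zero (dt_stab v hx fun i => hζ _) (dt_stab v hx fun i => hζ _)
  · exact (dt_cont v _).mul (dt_cont v _)
  · obtain ⟨r1, h1⟩ := exists_real (z := fun i => ζ (Sum.inl i)) fun i => hζ _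
    obtain ⟨r2, h2⟩ := exists_real (z := fun i => ζ (Sum.inr i)) fun i => hζ _
    rw [base, h1, h2, dt_real, dt_real, ← Complex.ofReal_mul, Complex.ofReal_im]

section Start

variable {v : ι → n → ℝ} {r : ℝ} (hr : 0 < r) (hv : ∀ i, ∑ j, v i j ^ 2 ≤ r ^ 2)
  (hs : ∀ x : n → ℝ, ∑ i, (∑ j, v i j * x j) ^ 2 ≤ ∑ j, x j ^ 2)

omit [DecidableEq ι] in
include hr hs in
theorem form_ge {x : ℝ} (hx : 3 * r ≤ x) {z : ι → ℝ} (hz : ∀ i, -(2 * r) ≤ z i) (y : n → ℝ) :
    r * ∑ j, y j ^ 2 ≤ y ⬝ᵥ (mat v x z *ᵥ y) := by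
  rw [mat_form]
  have h1 : ∑ i, -(2 * r) * (∑ j, v i j * y j) ^ 2 ≤
      ∑ i, z i * ((∑ j, v i j * y j) * ∑ j, v i j * y j) :=
    Finset.sum_le_sum fun i _ => by nlinarith [hz i, sq_nonneg (∑ j, v i j * y j)]
  rw [← Finset.mul_sum] at h1
  have h2 := hs y
  have h3 : ∑ j, y j * y j = ∑ j, y j ^ 2 := Finset.sum_congr rfl fun j _ => by ring
  have h4 : 0 ≤ ∑ j, y j ^ 2 := Finset.sum_nonneg fun j _ => sq_nonneg _
  rw [h3]
  nlinarith

include hr hv hs in
theorem start {x : ℝ} (hx : 3 * r ≤ x) {z : ι → ℝ} (hz : ∀ i, -(2 * r) ≤ z i) :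
    0 < (mat v x z).det ∧
      ∀ i, (mat v x (z + Pi.single i 1)).det - (mat v x z).det ≤ r * (mat v x z).det := by
  constructor
  · refine PosDef.det_pos (.of_dotProduct_mulVec_pos (mat_herm _ _ _) fun y hy => ?_)
    have h1 := form_ge hr hs hx hz y
    have p1 : 0 < ∑ j, y j ^ 2 := by
      obtain ⟨j, hj⟩ := Function.ne_iff.1 hy
      exact Finset.sum_pos' (fun j _ => sq_nonneg _) ⟨j, mem_univ j, pow_pos (abs_pos.2 hj) 2 |>.trans_eq (sq_abs _)⟩
    have := mul_pos hr p1
    simp only [star_trivial]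
    linarith
  · intro i
    have h0 : 0 ≤ (mat v x (z + Pi.single i (-1 / r))).det := by
      refine PosSemidef.det_nonneg (.of_dotProduct_mulVec_nonneg (mat_herm _ _ _) fun y => ?_)
      have h1 := form_ge hr hs hx hz y
      have h2 : (∑ j, v i j * y j) ^ 2 ≤ (∑ j, v i j ^ 2) * ∑ j, y j ^ 2 :=
        Finset.sum_mul_sq_le_sq_mul_sq _ _ _
      have h4 : 0 ≤ ∑ j, y j ^ 2 := Finset.sum_nonneg fun j _ => sq_nonneg _
      have h3 : (∑ j, v i j * y j) ^ 2 ≤ r ^ 2 * ∑ j, y j ^ 2 :=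
        h2.trans (mul_le_mul_of_nonneg_right (hv i) h4)
      have h5 : y ⬝ᵥ (vecMulVec (v i) (v i) *ᵥ y) = (∑ j, v i j * y j) ^ 2 := by
        simp only [vecMulVec_mulVec, dotProduct_smul, MulOpposite.smul_eq_mul_unop,
          MulOpposite.unop_op]
        simp only [dotProduct, sq]
        congr 1
        exact Finset.sum_congr rfl fun j _ => mul_comm _ _
      simp only [star_trivial, mat_add_single, add_mulVec, smul_mulVec, dotProduct_add,
        dotProduct_smul, smul_eq_mul, h5]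
      have h6 : (∑ j, v i j * y j) ^ 2 / r ≤ r * ∑ j, y j ^ 2 := by
        rw [div_le_iff₀ hr]; nlinarith
      have h7 : -1 / r * (∑ j, v i j * y j) ^ 2 = -((∑ j, v i j * y j) ^ 2 / r) := by ring
      linarith
    rw [mat_add_single, det_aff] at h0
    rw [mat_add_single, one_smul]
    have h1 := mul_nonneg hr.le h0
    have e : r * (-1 / r) = -1 := by field_simp
    rw [mul_add, ← mul_assoc, e] at h1
    linarith

include hr hv hs in
theorem inv_base {x : ℝ} (hx : 3 * r ≤ x) : Inv (base v x) (2 * r) ∅ := by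
  intro ζ hζ
  obtain ⟨r1, h1⟩ := exists_real (z := fun i => ζ (Sum.inl i)) fun i => hζ.1 _
  obtain ⟨r2, h2⟩ := exists_real (z := fun i => ζ (Sum.inr i)) fun i => hζ.1 _
  have b1 : ∀ i, -(2 * r) ≤ r1 i := fun i => by
    have := hζ.2.2 (Sum.inl i) (by simp)
    rw [congrFun h1 i] at this
    simpa using this
  have b2 : ∀ i, -(2 * r) ≤ r2 i := fun i => by
    have := hζ.2.2 (Sum.inr i) (by simp)
    rw [congrFun h2 i] at this
    simpa using this
  obtain ⟨p1, q1⟩ := start hr hv hs hx b1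
  obtain ⟨p2, q2⟩ := start hr hv hs hx b2
  have e : ∀ (z : ι → ℝ) (i : ι), (fun i => (z i : ℂ)) + Pi.single i 1 =
      fun j => (((z + Pi.single i 1 : ι → ℝ) j : ℝ) : ℂ) := by
    intro z i
    ext j
    simp [Pi.single_apply]
    split_ifs <;> simp
  have hb : base v x ζ = (((mat v x r1).det * (mat v x r2).det : ℝ) : ℂ) := by
    rw [base, h1, h2, dt_real, dt_real, Complex.ofReal_mul]
  refine ⟨by rw [hb, Complex.ofReal_re]; positivity, fun u _ => ?_⟩
  rw [dif, hb]
  rcases u with i | i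
  · rw [base, single_ll, single_lr, h1, h2, e, dt_real, dt_real, ← Complex.ofReal_mul,
      ← Complex.ofReal_sub, Complex.ofReal_re, Complex.ofReal_re]
    nlinarith [q1 i]
  · rw [base, single_rr, single_rl, h1, h2, e, dt_real, dt_real, ← Complex.ofReal_mul,
      ← Complex.ofReal_sub, Complex.ofReal_re, Complex.ofReal_re]
    nlinarith [q2 i]

end Start

end Vale.Agent.P061Z.MSS
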