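import Mathlib

/-! # P061: stability of multi-affine functions under averaging over a sign -/

namespace Vale.Agent.P061Z.MSS

open Filter Topology

/-- The biaffine step. -/
theorem biaffine {a b c d : ℂ} (h : ∀ z w : ℂ, 0 ≤ z.im → 0 ≤ w.im → a + b * z + c * w + d * z * w ≠ 0)
    {γ : ℝ} (hγ : 0 ≤ γ) (z w : ℂ) (hz : 0 ≤ z.im) (hw : 0 ≤ w.im) :
    a + b * z + c * w + d * z * w - γ * d ≠ 0 := by
  rcases eq_or_ne d 0 with rfl | hd
  · simpa using h z w hz hw
  rcases eq_or_lt_of_le hγ with h0 | hγ0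
  · subst h0; simpa using h z w hz hw
  set m := c / d with hm
  set b' := b / d with hb'
  set K := a / d - b' * m with hK
  have key : ∀ z w : ℂ, a + b * z + c * w + d * z * w = d * ((z + m) * (w + b') + K) := by
    intro z w; simp only [hm, hb', hK]; field_simp; ring
  have h' : ∀ z w : ℂ, 0 ≤ z.im → 0 ≤ w.im → (z + m) * (w + b') + K ≠ 0 := by
    intro z w hz hw h0
    exact h z w hz hw (by rw [key, h0, mul_zero])
  -- the shift `m` lies in the closed upper half plane
  have hmim : 0 ≤ m.im := by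
    by_contra hneg
    push Not at hneg
    set y : ℝ := |b'.im| + (‖K‖ + 1) / (-m.im) with hy
    have hy2 : 0 < (‖K‖ + 1) / (-m.im) := div_pos (by positivity) (by linarith)
    set W : ℂ := y * Complex.I + b' with hW
    have hWim : (‖K‖ + 1) / (-m.im) ≤ W.im := by
      simp only [hW, hy, Complex.add_im, Complex.mul_im, Complex.ofReal_re, Complex.I_im,
        Complex.ofReal_im, Complex.I_re]
      have := neg_abs_le b'.im
      linarith
    have hWn : (‖K‖ + 1) / (-m.im) ≤ ‖W‖ := hWim.trans ((le_abs_self _).trans (Complex.abs_im_le_norm W))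
    have hW0 : 0 < ‖W‖ := hy2.trans_le hWn
    have hWne : W ≠ 0 := norm_pos_iff.1 hW0
    have hq : ‖K / W‖ ≤ -m.im := by
      rw [norm_div, div_le_iff₀ hW0]
      rw [div_le_iff₀ (by linarith)] at hWn
      nlinarith
    refine h' (-m - K / W) (y * Complex.I) ?_ ?_ ?_
    · have := (le_abs_self _).trans ((Complex.abs_im_le_norm (K / W)).trans hq)
      simp only [Complex.sub_im, Complex.neg_im]
      linarith
    · simp only [Complex.mul_im, Complex.ofReal_re, Complex.I_im, Complex.ofReal_im, Complex.I_re]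
      have := abs_nonneg b'.im
      simp only [hy]
      linarith
    · rw [← hW]; field_simp; ring
  intro h0
  have h1 : (z + m) * (w + b') + K - γ = 0 := by
    have : d * ((z + m) * (w + b') + K - γ) = 0 := by rw [mul_sub, ← key, ← h0]; ring
    exact (mul_eq_zero.1 this).resolve_left hd
  rcases eq_or_ne (z + m) 0 with hzm | hzm
  · have hKγ : K = γ := by rw [hzm] at h1; linear_combination h1
    set y : ℝ := γ / (|b'.im| + 1) with hy
    have hb1 : 0 < |b'.im| + 1 := by positivity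
    have hy0 : 0 < y := div_pos hγ0 hb1
    refine h' (z + y * Complex.I) (((|b'.im| + 1 : ℝ) : ℂ) * Complex.I - b') ?_ ?_ ?_
    · simp only [Complex.add_im, Complex.mul_im, Complex.ofReal_re, Complex.I_im,
        Complex.ofReal_im, Complex.I_re]
      linarith
    · simp only [Complex.sub_im, Complex.mul_im, Complex.ofReal_re, Complex.I_im,
        Complex.ofReal_im, Complex.I_re]
      have := le_abs_self b'.im
      linarith
    · have e1 : (y : ℂ) * ((|b'.im| + 1 : ℝ) : ℂ) = γ := by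
        rw [← Complex.ofReal_mul, hy, div_mul_cancel₀ _ hb1.ne']
      rw [hKγ]
      linear_combination ((((|b'.im| + 1 : ℝ) : ℂ) * Complex.I)) * hzm - e1 +
        ((y : ℂ) * ((|b'.im| + 1 : ℝ) : ℂ)) * Complex.I_mul_I
  · refine h' z (w - γ / (z + m)) hz ?_ ?_
    · have h2 : (γ / (z + m) : ℂ).im ≤ 0 := by
        rw [div_eq_mul_inv, Complex.im_ofReal_mul, Complex.inv_im]
        have h3 : 0 ≤ (z + m).im := by simp only [Complex.add_im]; linarith
        have h4 := Complex.normSq_nonneg (z + m)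
        have : -(z + m).im / Complex.normSq (z + m) ≤ 0 :=
          div_nonpos_of_nonpos_of_nonneg (by linarith) h4
        nlinarith
      simp only [Complex.sub_im]
      linarith
    · rw [← h1]; field_simp; ring

variable {K : Type} [DecidableEq K]

/-- Difference in the variable `k`. -/
def dif (f : (K → ℂ) → ℂ) (k : K) (ζ : K → ℂ) : ℂ := f (ζ + Pi.single k 1) - f ζ

/-- Affine in each variable. -/
def Aff (f : (K → ℂ) → ℂ) : Prop :=
  ∀ (ζ : K → ℂ) (k : K) (c : ℂ), f (ζ + Pi.single k c) = f ζ + c * dif f k ζ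

theorem Aff.dif {f : (K → ℂ) → ℂ} (h : Aff f) (k : K) : Aff (dif f k) := by
  intro ζ j c
  have e1 : ζ + Pi.single j c + Pi.single k 1 = ζ + Pi.single k 1 + Pi.single j c := by abel
  have e2 : ζ + Pi.single j 1 + Pi.single k 1 = ζ + Pi.single k 1 + Pi.single j 1 := by abel
  have h1 := h (ζ + Pi.single k 1) j c
  have h2 := h ζ j c
  simp only [MSS.dif] at h1 h2 ⊢
  rw [e1, e2, h1, h2]
  ring

theorem Aff.two {f : (K → ℂ) → ℂ} (h : Aff f) (ζ : K → ℂ) (s t : K) (a b : ℂ) :
    f (ζ + Pi.single s a + Pi.single t b) =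
      f ζ + MSS.dif f s ζ * a + MSS.dif f t ζ * b + MSS.dif (MSS.dif f t) s ζ * a * b := by
  rw [h _ t b, h ζ s a, h.dif t ζ s a]
  ring

/-- The properties kept along the argument. -/
structure Good (f : ℂ → (K → ℂ) → ℂ) : Prop where
  aff : ∀ x, Aff (f x)
  stab : ∀ (x : ℂ) (ζ : K → ℂ), 0 < x.im → (∀ k, 0 ≤ (ζ k).im) → f x ζ ≠ 0
  cont : ∀ ζ, Continuous fun x => f x ζ
  real : ∀ (x : ℝ) (ζ : K → ℂ), (∀ k, (ζ k).im = 0) → (f x ζ).im = 0

/-- Average over a sign with mean `μ`. -/
noncomputable def op (s t : K) (μ : ℝ) (f : ℂ → (K → ℂ) → ℂ) (x : ℂ) (ζ : K → ℂ) : ℂ :=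
  (1 + μ) / 2 * f x (ζ + Pi.single s (-1) + Pi.single t 1) +
    (1 - μ) / 2 * f x (ζ + Pi.single s 1 + Pi.single t (-1))

theorem im_add_single {ζ : K → ℂ} (hζ : ∀ k, 0 ≤ (ζ k).im) (s : K) {c : ℂ} (hc : 0 ≤ c.im) (k : K) :
    0 ≤ ((ζ + Pi.single s c : K → ℂ) k).im := by
  rcases eq_or_ne k s with rfl | h
  · have := hζ k
    simp only [Pi.add_apply, Pi.single_eq_same, Complex.add_im]; linarith
  · simpa [Pi.single_eq_of_ne h] using hζ k

theorem im_add_single_real {ζ : K → ℂ} (hζ : ∀ k, (ζ k).im = 0) (s : K) {c : ℂ} (hc : c.im = 0)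
    (k : K) : ((ζ + Pi.single s c : K → ℂ) k).im = 0 := by
  rcases eq_or_ne k s with rfl | h
  · simp [hζ k, hc]
  · simpa [Pi.single_eq_of_ne h] using hζ k

theorem Good.op {f : ℂ → (K → ℂ) → ℂ} (h : Good f) {s t : K} (hst : s ≠ t) {μ : ℝ}
    (hμ : μ ^ 2 ≤ 1) : Good (op s t μ f) := by
  refine ⟨fun x ζ k c => ?_, fun x ζ hx hζ => ?_, fun ζ => ?_, fun x ζ hζ => ?_⟩
  · have e : ∀ a b c' : ℂ, ζ + Pi.single k c' + Pi.single s a + Pi.single t b =
        ζ + Pi.single s a + Pi.single t b + Pi.single k c' := fun a b c' => by abel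
    simp only [MSS.op, MSS.dif, e]
    rw [h.aff x _ k c, h.aff x (ζ + Pi.single s 1 + Pi.single t (-1)) k c]
    simp only [MSS.dif]
    ring
  · set ζ₀ : K → ℂ := ζ + Pi.single s (-ζ s) + Pi.single t (-ζ t) with hζ₀
    have h0 : ∀ k, 0 ≤ (ζ₀ k).im := by
      intro k
      rcases eq_or_ne k s with rfl | h1
      · simp [hζ₀, Pi.single_eq_of_ne hst]
      · rcases eq_or_ne k t with rfl | h2
        · simp [hζ₀, Pi.single_eq_of_ne h1]
        · simpa [hζ₀, Pi.single_eq_of_ne h1, Pi.single_eq_of_ne h2] using hζ k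
    have e : ∀ a b : ℂ, ζ + Pi.single s a + Pi.single t b =
        ζ₀ + Pi.single s (ζ s + a) + Pi.single t (ζ t + b) := by
      intro a b
      simp only [hζ₀, Pi.single_add, Pi.single_neg]
      abel
    have hb := biaffine (a := f x ζ₀) (b := MSS.dif (f x) s ζ₀) (c := MSS.dif (f x) t ζ₀)
      (d := MSS.dif (MSS.dif (f x) t) s ζ₀) (fun z w hz hw => by
        rw [← (h.aff x).two]
        exact h.stab x _ hx (im_add_single (im_add_single h0 s hz) t hw))
      (γ := 1 - μ ^ 2) (by linarith) (ζ s - μ) (ζ t + μ) (by simpa using hζ s)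
      (by simpa using hζ t)
    intro h1
    apply hb
    rw [← h1]
    simp only [MSS.op, e, (h.aff x).two]
    push_cast
    ring
  · simp only [MSS.op]
    exact (continuous_const.mul (h.cont _)).add (continuous_const.mul (h.cont _))
  · have r1 := h.real x _ (im_add_single_real (im_add_single_real hζ s (c := -1) (by simp)) t
      (c := 1) (by simp))
    have r2 := h.real x _ (im_add_single_real (im_add_single_real hζ s (c := 1) (by simp)) t
      (c := -1) (by simp))
    have e1 : ((1 + μ) / 2 : ℂ) = (((1 + μ) / 2 : ℝ) : ℂ) := by push_cast; ring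
    have e2 : ((1 - μ) / 2 : ℂ) = (((1 - μ) / 2 : ℝ) : ℂ) := by push_cast; ring
    simp only [MSS.op, e1, e2, Complex.add_im, Complex.im_ofReal_mul, r1, r2]
    ring

/-- The basic inequality on the real axis. -/
theorem Good.im_nonneg {f : ℂ → (K → ℂ) → ℂ} (h : Good f) (x : ℝ) {ζ : K → ℂ}
    (hζ : ∀ k, 0 ≤ (ζ k).im) (u : K) :
    0 ≤ (f x ζ * (starRingEnd ℂ) (dif (f x) u ζ)).im := by
  have h1 : ∀ y : ℂ, 0 < y.im → 0 ≤ (f y ζ * (starRingEnd ℂ) (dif (f y) u ζ)).im := by
    intro y hy
    rcases eq_or_ne (dif (f y) u ζ) 0 with h0 | h0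
    · simp [h0]
    by_contra hneg
    push Not at hneg
    refine h.stab y (ζ + Pi.single u (-(f y ζ / dif (f y) u ζ))) hy
      (im_add_single hζ u ?_) ?_
    · have hn : 0 < Complex.normSq (dif (f y) u ζ) := Complex.normSq_pos.2 h0
      rw [Complex.neg_im, div_eq_mul_inv, Complex.inv_def, ← mul_assoc, Complex.im_mul_ofReal]
      have := inv_pos.2 hn
      nlinarith
    · rw [h.aff y]; field_simp; ring
  have hc : Continuous fun η : ℝ =>
      (f (x + η * Complex.I) ζ * (starRingEnd ℂ) (dif (f (x + η * Complex.I)) u ζ)).im := by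
    have c0 : Continuous fun η : ℝ => (x + η * Complex.I : ℂ) := by fun_prop
    have c1 := (h.cont ζ).comp c0
    have c2 := (h.cont (ζ + Pi.single u 1)).comp c0
    exact Complex.continuous_im.comp (c1.mul (Complex.continuous_conj.comp (c2.sub c1)))
  have ht := (hc.tendsto 0).mono_left (nhdsWithin_le_nhds (s := Set.Ioi 0))
  have := ge_of_tendsto ht (eventually_nhdsWithin_of_forall fun η hη => h1 _ (by simpa using hη))
  simpa using this

end Vale.Agent.P061Z.MSS
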